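import Vale.Agent.P025.Lemmas

/-!
# The curves `a² - d b² = e`, `y² = a^n + 1`
-/

noncomputable section

namespace Vale.Agent.P025

/-- An algebraic closure of the rational function field `k(t)`. -/
abbrev Omega (k : Type) [Field k] : Type := AlgebraicClosure (RatFunc k)

/-- The algebraic closure of `k` inside `Omega k`. -/
abbrev kbar (k : Type) [Field k] : IntermediateField k (Omega k) := algebraicClosure k (Omega k)

open Polynomial IntermediateField

variable {k : Type} [Field k]

/-- Data: `e` is not a norm from `k(√d)`, with named coordinates in `Omega k`. -/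
structure Data (k : Type) [Field k] where
  /-- parameter -/
  d : k
  /-- parameter -/
  e : k
  /-- `genus = 2m+1` -/
  m : ℕ
  /-- `√d` -/
  δ : Omega k
  /-- parameter of the conic over `k(√d)` -/
  T : Omega k
  /-- `√(a^n+1)` -/
  y : Omega k
  d_ne : d ≠ 0
  e_ne : e ≠ 0
  nonnorm : ∀ x y : k, x ^ 2 - d * y ^ 2 ≠ e
  e_pow : e ^ (2 * m + 1) ≠ 1
  hT : Transcendental k T
  hδ : δ ^ 2 = algebraMap k (Omega k) d
  hy : y ^ 2 = ((T + algebraMap k (Omega k) e / T) / 2) ^ (2 * m + 1) + 1

theorem exists_data [CharZero k] {d e : k} (hd : d ≠ 0) (he : e ≠ 0)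
    (hN : ∀ x y : k, x ^ 2 - d * y ^ 2 ≠ e) {m : ℕ} (hm : e ^ (2 * m + 1) ≠ 1) :
    ∃ D : Data k, D.m = m := by
  let T : Omega k := algebraMap (RatFunc k) (Omega k) RatFunc.X
  have hT : Transcendental k T :=
    (transcendental_algebraMap_iff (algebraMap (RatFunc k) (Omega k)).injective).2
      RatFunc.transcendental_X
  obtain ⟨δ, hδ⟩ := IsAlgClosed.exists_pow_nat_eq (algebraMap k (Omega k) d) two_pos
  obtain ⟨y, hy⟩ := IsAlgClosed.exists_pow_nat_eq
    (((T + algebraMap k (Omega k) e / T) / 2) ^ (2 * m + 1) + 1) two_pos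
  exact ⟨⟨d, e, m, δ, T, y, hd, he, hN, hm, hT, hδ, hy⟩, rfl⟩

namespace Data

variable (D : Data k)

/-- first coordinate of the conic -/
def a : Omega k := (D.T + algebraMap k (Omega k) D.e / D.T) / 2

/-- second coordinate of the conic -/
def b : Omega k := (D.T - algebraMap k (Omega k) D.e / D.T) / (2 * D.δ)

/-- the function field -/
def K : IntermediateField k (Omega k) := adjoin k {D.a, D.b, D.y}

theorem T_ne : D.T ≠ 0 := fun h => D.hT (h ▸ isAlgebraic_zero)

theorem δ_ne : D.δ ≠ 0 := fun h => by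
  have := D.hδ
  rw [h, zero_pow two_ne_zero, eq_comm] at this
  exact D.d_ne ((map_eq_zero _).1 this)

theorem isAlgebraic_δ : IsAlgebraic k D.δ :=
  IsAlgebraic.of_pow two_pos (D.hδ ▸ isAlgebraic_algebraMap _)

theorem e_not_sq (x : k) : x ^ 2 ≠ D.e := fun h => D.nonnorm x 0 (by rw [← h]; ring)

theorem d_not_sq [CharZero k] (q : k) : q ^ 2 ≠ D.d := fun h => by
  have hq : q ≠ 0 := by rintro rfl; exact D.d_ne (by rw [← h]; ring)
  apply D.nonnorm ((D.e + 1) / 2) ((D.e - 1) / (2 * q))
  rw [← h]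
  field_simp
  ring

variable [CharZero k]

instance : CharZero (Omega k) := charZero_of_injective_algebraMap (algebraMap k (Omega k)).injective

theorem y_sq : D.y ^ 2 = D.a ^ (2 * D.m + 1) + 1 := D.hy

theorem a_add_bδ : D.a + D.b * D.δ = D.T := by
  have := D.δ_ne
  have := D.T_ne
  unfold a b
  field_simp
  ring

theorem conic : D.a ^ 2 - algebraMap k (Omega k) D.d * D.b ^ 2 = algebraMap k (Omega k) D.e := by
  have := D.δ_ne
  have := D.T_ne
  rw [← D.hδ]
  unfold a b
  field_simp
  ring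

theorem a_transcendental : Transcendental k D.a := by
  intro h
  have hK : D.a ∈ kbar k := mem_algebraicClosure_iff.2 h
  haveI : IsAlgClosed (kbar k) := IsAlgClosure.isAlgClosed k
  obtain ⟨r, hr⟩ := IsAlgClosed.exists_pow_nat_eq
    ((⟨D.a, hK⟩ : kbar k) ^ 2 - algebraMap k (kbar k) D.e) two_pos
  have hr' : (r : Omega k) ^ 2 = D.a ^ 2 - algebraMap k (Omega k) D.e := by
    have := congrArg (fun z : kbar k => (z : Omega k)) hr
    simp only [SubmonoidClass.coe_pow, AddSubgroupClass.coe_sub] at this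
    exact this
  have h2 : (D.T - D.a - r) * (D.T - D.a + r) = 0 := by
    have := D.T_ne
    have hr'' : (r : Omega k) ^ 2 = D.a ^ 2 - algebraMap k (Omega k) D.e := hr'
    have hTT : D.T ^ 2 - 2 * D.a * D.T + algebraMap k (Omega k) D.e = 0 := by
      unfold a
      field_simp
      ring
    linear_combination hTT - hr''
  rcases mul_eq_zero.1 h2 with h3 | h3
  · exact D.hT (mem_algebraicClosure_iff.1
      (show D.T ∈ kbar k by rw [show D.T = D.a + r by linear_combination h3]; exact add_mem hK r.2))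
  · exact D.hT (mem_algebraicClosure_iff.1
      (show D.T ∈ kbar k by rw [show D.T = D.a - r by linear_combination h3]; exact sub_mem hK r.2))

theorem a_mem : D.a ∈ D.K := subset_adjoin _ _ (by simp)

theorem b_mem : D.b ∈ D.K := subset_adjoin _ _ (by simp)

theorem y_mem : D.y ∈ D.K := subset_adjoin _ _ (by simp)

/-- the polynomial `((X² + e)/2)^n + X^n` -/
def G : k[X] :=
  (C (2 : k)⁻¹ * (X ^ 2 + C D.e)) ^ (2 * D.m + 1) + X ^ (2 * D.m + 1)

theorem natDegree_G : D.G.natDegree = 4 * D.m + 2 := by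
  have h2 : (2 : k)⁻¹ ≠ 0 := inv_ne_zero two_ne_zero
  have h1 : ((C (2 : k)⁻¹ * (X ^ 2 + C D.e)) ^ (2 * D.m + 1)).natDegree = 4 * D.m + 2 := by
    rw [natDegree_pow, natDegree_C_mul h2, natDegree_X_pow_add_C]; ring
  rw [G, natDegree_add_eq_left_of_natDegree_lt, h1]
  rw [h1, natDegree_X_pow]; omega

theorem natDegree_XG : (X * D.G).natDegree = 2 * (2 * D.m + 1) + 1 := by
  have hne : D.G ≠ 0 := fun h => by
    have := D.natDegree_G
    rw [h, natDegree_zero] at this; omega
  rw [natDegree_X_mul hne, D.natDegree_G]; ring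

theorem separable_XG : (X * D.G).Separable := by
  let Q := AlgebraicClosure k
  have : CharZero Q := charZero_of_injective_algebraMap (algebraMap k Q).injective
  rw [Polynomial.separable_def, Polynomial.isCoprime_iff_aeval_ne_zero_of_isAlgClosed k Q]
  intro t
  rw [or_iff_not_and_not]
  rintro ⟨h1, h2⟩
  simp only [not_not] at h1 h2
  set ε : Q := algebraMap k Q D.e with hε
  have hε0 : ε ≠ 0 := by simpa [hε] using D.e_ne
  set A : Q := (t ^ 2 + ε) / 2 with hA
  have eG : aeval t D.G = A ^ (2 * D.m + 1) + t ^ (2 * D.m + 1) := by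
    simp [G, hA, hε, map_ofNat, div_eq_inv_mul]
  have eG' : aeval t (derivative D.G) =
      (2 * (D.m : Q) + 1) * (A ^ (2 * D.m) * t + t ^ (2 * D.m)) := by
    simp [G, hA, hε, derivative_pow, map_ofNat, div_eq_inv_mul]
    ring
  rcases eq_or_ne t 0 with rfl | ht
  · have : aeval (0 : Q) D.G = 0 := by simpa [derivative_mul] using h2
    rw [eG] at this
    simp [hA, hε0] at this
  · have hG : aeval t D.G = 0 := by simpa [ht] using h1
    have hG' : aeval t (derivative D.G) = 0 := by
      simpa [derivative_mul, hG, ht] using h2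
    rw [eG] at hG
    rw [eG'] at hG'
    have hn : (2 * (D.m : Q) + 1) ≠ 0 := by
      have := Nat.cast_add_one_ne_zero (R := Q) (2 * D.m)
      rw [Nat.cast_mul, Nat.cast_ofNat] at this
      exact this
    have h3 : A ^ (2 * D.m) * t + t ^ (2 * D.m) = 0 := (mul_eq_zero.1 hG').resolve_left hn
    have h4 : t ^ (2 * D.m) * (A - t ^ 2) = 0 := by
      linear_combination A * h3 - t * hG
    have h5 : A = t ^ 2 :=
      sub_eq_zero.1 ((mul_eq_zero.1 h4).resolve_left (pow_ne_zero _ ht))
    have h6 : t ^ 2 = ε := by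
      linear_combination (2 : Q) * (hA.symm.trans h5) * (-1 : Q)
    rw [h5, h6] at hG
    have h7 : ε ^ (2 * D.m + 1) * ε ^ (2 * D.m + 1) = ε ^ (2 * D.m + 1) * 1 := by
      calc ε ^ (2 * D.m + 1) * ε ^ (2 * D.m + 1) = (-(t ^ (2 * D.m + 1))) ^ 2 := by
            rw [← eq_neg_of_add_eq_zero_left hG]; ring
        _ = (t ^ 2) ^ (2 * D.m + 1) := by rw [← pow_mul, neg_sq, ← pow_mul]; ring_nf
        _ = _ := by rw [h6, mul_one]
    exact D.e_pow ((algebraMap k Q).injective (by
      rw [map_pow, map_one]; exact mul_left_cancel₀ (pow_ne_zero _ hε0) h7))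

theorem aeval_XG : (D.y * D.T ^ (D.m + 1)) ^ 2 = aeval D.T (X * D.G) := by
  have := D.T_ne
  simp only [G, map_mul, map_add, map_pow, aeval_X, aeval_C, map_inv₀, map_ofNat]
  have hA : (2 : Omega k)⁻¹ * (D.T ^ 2 + algebraMap k (Omega k) D.e) = D.T * D.a := by
    unfold a
    field_simp
  rw [mul_pow, D.y_sq, hA]
  ring

theorem mem_adjoin_kbar {z : Omega k} (hz : z ∈ adjoin k ({D.a, D.b} : Set (Omega k))) :
    z ∈ adjoin (kbar k) ({D.T} : Set (Omega k)) := by
  set F := adjoin (kbar k) ({D.T} : Set (Omega k)) with hF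
  have hT : D.T ∈ F := subset_adjoin _ _ (Set.mem_singleton _)
  have hc : ∀ c ∈ kbar k, c ∈ F := fun c hc => F.algebraMap_mem ⟨c, hc⟩
  have he : algebraMap k (Omega k) D.e ∈ F := hc _ ((kbar k).algebraMap_mem _)
  have hδ : D.δ ∈ F := hc _ (mem_algebraicClosure_iff.2 D.isAlgebraic_δ)
  have hb2 : (2 : Omega k) ∈ F := by exact_mod_cast IntermediateField.natCast_mem F 2
  have ha : D.a ∈ F := div_mem (add_mem hT (div_mem he hT)) hb2
  have hb : D.b ∈ F := div_mem (sub_mem hT (div_mem he hT)) (mul_mem hb2 hδ)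
  have : adjoin k ({D.a, D.b} : Set (Omega k)) ≤ F.restrictScalars k := by
    rw [adjoin_le_iff]
    rintro x (rfl | rfl)
    · exact ha
    · exact hb
  exact this hz

theorem T_transcendental_kbar : Transcendental (kbar k) D.T :=
  fun h => D.hT (h.restrictScalars k)

theorem y_not_mem : D.y ∉ adjoin (kbar k) ({D.T} : Set (Omega k)) := by
  intro hy
  have hT : D.T ∈ adjoin (kbar k) ({D.T} : Set (Omega k)) :=
    subset_adjoin _ _ (Set.mem_singleton _)
  have hsep : ((X * D.G).map (algebraMap k (kbar k))).Separable := D.separable_XG.map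
  have hdeg : ((X * D.G).map (algebraMap k (kbar k))).natDegree ≠ 0 := by
    rw [natDegree_map, D.natDegree_XG]; omega
  have hval : aeval D.T ((X * D.G).map (algebraMap k (kbar k))) = aeval D.T (X * D.G) :=
    Polynomial.aeval_map_algebraMap _ _ _
  refine sq_ne_aeval_of_separable (F := kbar k) D.T_transcendental_kbar
    hsep hdeg (R := D.y * D.T ^ (D.m + 1)) (mul_mem hy (pow_mem hT (D.m + 1))) ?_
  rw [hval]
  exact D.aeval_XG

theorem b_sq_mem : D.b ^ 2 ∈ adjoin k ({D.a} : Set (Omega k)) := by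
  have ha : D.a ∈ adjoin k ({D.a} : Set (Omega k)) := subset_adjoin _ _ (Set.mem_singleton _)
  have hd : algebraMap k (Omega k) D.d ≠ 0 := by simpa using D.d_ne
  have : D.b ^ 2 = (D.a ^ 2 - algebraMap k (Omega k) D.e) / algebraMap k (Omega k) D.d := by
    rw [eq_div_iff hd]; linear_combination -D.conic
  rw [this]
  exact div_mem (sub_mem (pow_mem ha 2) (IntermediateField.algebraMap_mem _ _))
    (IntermediateField.algebraMap_mem _ _)

theorem y_sq_mem : D.y ^ 2 ∈ adjoin k ({D.a, D.b} : Set (Omega k)) := by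
  rw [D.y_sq]
  exact add_mem (pow_mem (subset_adjoin _ _ (by simp)) _) (one_mem _)

theorem b_not_mem : D.b ∉ adjoin (kbar k) ({D.a} : Set (Omega k)) := by
  intro hb
  have hat : Transcendental (kbar k) D.a := fun h => D.a_transcendental (h.restrictScalars k)
  have hδ : D.δ ∈ kbar k := mem_algebraicClosure_iff.2 D.isAlgebraic_δ
  set f : (kbar k)[X] := X ^ 2 - C (algebraMap k (kbar k) D.e) with hf
  have hsep : f.Separable :=
    separable_X_pow_sub_C _ (by norm_num) (by simpa using D.e_ne)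
  refine sq_ne_aeval_of_separable hat (f := f) hsep (by rw [hf, natDegree_X_pow_sub_C]; omega)
    (mul_mem (IntermediateField.algebraMap_mem _ (⟨D.δ, hδ⟩ : kbar k)) hb) ?_
  simp only [hf, map_sub, map_pow, aeval_X, aeval_C]
  show (D.δ * D.b) ^ 2 = D.a ^ 2 - algebraMap k (Omega k) D.e
  rw [mul_pow, D.hδ]
  linear_combination -D.conic

theorem geomConnected {x : Omega k} (hx : x ∈ D.K) (hxa : IsAlgebraic k x) :
    ∃ c : k, algebraMap k (Omega k) c = x := by
  obtain ⟨A, hA, B, hB, hxeq⟩ := exists_add_mul_of_sq_mem _ D.y_sq_mem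
    (s := {D.a, D.b, D.y}) (by
      rintro z (rfl | rfl | rfl)
      · exact Or.inl (subset_adjoin _ _ (by simp))
      · exact Or.inl (subset_adjoin _ _ (by simp))
      · exact Or.inr rfl) hx
  have hxk : x ∈ kbar k := mem_algebraicClosure_iff.2 hxa
  have hxF : ∀ S : Set (Omega k), x ∈ adjoin (kbar k) S :=
    fun S => IntermediateField.algebraMap_mem _ (⟨x, hxk⟩ : kbar k)
  rcases eq_or_ne B 0 with rfl | hB0
  · rw [zero_mul, add_zero] at hxeq
    subst hxeq
    obtain ⟨A', hA', B', hB', hxeq⟩ := exists_add_mul_of_sq_mem _ D.b_sq_mem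
      (s := {D.a, D.b}) (by
        rintro z (rfl | rfl)
        · exact Or.inl (subset_adjoin _ _ (by simp))
        · exact Or.inr rfl) hA
    rcases eq_or_ne B' 0 with rfl | hB0'
    · rw [zero_mul, add_zero] at hxeq
      exact exists_eq_of_mem_adjoin_of_isAlgebraic D.a_transcendental (hxeq ▸ hA') hxa
    · refine absurd ?_ D.b_not_mem
      have hle : adjoin k ({D.a} : Set (Omega k)) ≤
          (adjoin (kbar k) ({D.a} : Set (Omega k))).restrictScalars k := by
        rw [adjoin_le_iff]; exact subset_adjoin _ _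
      rw [show D.b = (x - A') / B' by rw [eq_div_iff hB0']; linear_combination -hxeq]
      exact div_mem (sub_mem (hxF _) (hle hA')) (hle hB')
  · refine absurd ?_ D.y_not_mem
    rw [show D.y = (x - A) / B by rw [eq_div_iff hB0]; linear_combination -hxeq]
    exact div_mem (sub_mem (hxF _) (D.mem_adjoin_kbar hA)) (D.mem_adjoin_kbar hB)

theorem isCurveOfGenus : IsCurveOfGenus D.K (2 * D.m + 1) := by
  refine ⟨fg_adjoin_of_finite (Set.toFinite _), fun x => D.geomConnected, D.δ, D.T,
    D.y * D.T ^ (D.m + 1), X * D.G, D.isAlgebraic_δ, D.hT, D.separable_XG, D.natDegree_XG,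
    D.aeval_XG, le_antisymm ?_ ?_⟩
  · rw [adjoin_le_iff]
    have hδ : D.δ ∈ D.K ⊔ adjoin k ({D.δ} : Set (Omega k)) :=
      le_sup_right (a := D.K) (subset_adjoin _ _ (Set.mem_singleton _))
    have hl : ∀ z ∈ D.K, z ∈ D.K ⊔ adjoin k ({D.δ} : Set (Omega k)) :=
      fun z hz => le_sup_left (b := adjoin k ({D.δ} : Set (Omega k))) hz
    have hT : D.T ∈ D.K ⊔ adjoin k ({D.δ} : Set (Omega k)) := by
      rw [← D.a_add_bδ]; exact add_mem (hl _ D.a_mem) (mul_mem (hl _ D.b_mem) hδ)
    rintro z (rfl | rfl | rfl)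
    · exact hδ
    · exact hT
    · exact mul_mem (hl _ D.y_mem) (pow_mem hT _)
  · set M := adjoin k ({D.δ, D.T, D.y * D.T ^ (D.m + 1)} : Set (Omega k)) with hM
    have hδ : D.δ ∈ M := subset_adjoin _ _ (by simp)
    have hT : D.T ∈ M := subset_adjoin _ _ (by simp)
    have hY : D.y * D.T ^ (D.m + 1) ∈ M := subset_adjoin _ _ (by simp)
    have he : algebraMap k (Omega k) D.e ∈ M := M.algebraMap_mem _
    have h2 : (2 : Omega k) ∈ M := by exact_mod_cast IntermediateField.natCast_mem M 2
    refine sup_le ?_ (by rw [adjoin_le_iff]; rintro z rfl; exact hδ)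
    rw [K, adjoin_le_iff]
    rintro z (rfl | rfl | rfl)
    · exact div_mem (add_mem hT (div_mem he hT)) h2
    · exact div_mem (sub_mem hT (div_mem he hT)) (mul_mem h2 hδ)
    · have := div_mem hY (pow_mem hT (D.m + 1))
      rwa [mul_div_assoc, div_self (pow_ne_zero _ D.T_ne), mul_one] at this

end Data

end Vale.Agent.P025
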