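import Mathlib

/-!
# Curves as function fields, unramified closure, sections

For a field `k` and an algebraically closed field `Ω ⊇ k`, a smooth projective geometrically
connected curve over `k` is given by its function field `K ⊆ Ω`.
-/

noncomputable section

namespace Vale.Agent.P025

variable (k : Type) [Field k]

/-- A place of a field `L ⊇ k` trivial on `k`: a valuation ring `≠ L` containing `k`. -/
def IsPlace {L : Type} [Field L] [Algebra k L] (A : ValuationSubring L) : Prop :=
  A ≠ ⊤ ∧ ∀ c : k, algebraMap k L c ∈ A

/-- `L/K` is unramified at all places trivial on `k`: the value group of each such place of `L`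
equals that of its restriction to `K` (residue characteristic zero). -/
def IsUnramified (K L : Type) [Field K] [Field L] [Algebra K L] [Algebra k L] : Prop :=
  ∀ A : ValuationSubring L, IsPlace k A →
    ∀ z : L, ∃ x : K, A.valuation (algebraMap K L x) = A.valuation z

variable {k} {Ω : Type} [Field Ω] [Algebra k Ω]

/-- The compositum of all finite everywhere unramified extensions of `K` in `Ω`.
Its Galois group over `K` is the etale fundamental group of the curve. -/
def unrClosure (K : IntermediateField k Ω) : IntermediateField K Ω :=
  sSup {L : IntermediateField K Ω | FiniteDimensional K L ∧ IsUnramified k K L}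

/-- A continuous homomorphism `Gal(E/k) → Gal(F/K)` compatible with the action on the common
elements of `E` and `F` inside `Ω'`. -/
def HasSplitting (k E K F : Type) {Ω' : Type} [Field k] [Field E] [Field K] [Field F] [Algebra k E]
    [Algebra K F] (i : E → Ω') (j : F → Ω') : Prop :=
  ∃ s : (E ≃ₐ[k] E) →* (F ≃ₐ[K] F), Continuous s ∧
    ∀ (σ : E ≃ₐ[k] E) (x : F) (e : E), j x = i e → j (s σ x) = i (σ e)

/-- The curve with function field `K` has a section: a continuous homomorphism
`Gal(k̄/k) → Gal(K̃/K)` splitting the restriction to `k̄`. -/
def HasSection (K : IntermediateField k Ω) : Prop :=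
  HasSplitting k (algebraicClosure k Ω) K (unrClosure K) Subtype.val Subtype.val

/-- The curve with function field `K` has a `k`-rational point: a place with residue field `k`. -/
def HasRationalPoint (K : IntermediateField k Ω) : Prop :=
  ∃ A : ValuationSubring K, IsPlace k A ∧
    ∀ z ∈ A, ∃ c : k, A.valuation (z - algebraMap k K c) < 1

/-- `K` is the function field of a geometrically connected curve over `k` which, over some
`k(δ)` with `δ` algebraic over `k`, becomes the hyperelliptic curve `Y² = P(T)` with `P`
separable of degree `2g + 1`; so the curve has genus `g`. -/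
def IsCurveOfGenus (K : IntermediateField k Ω) (g : ℕ) : Prop :=
  K.FG ∧ (∀ x ∈ K, IsAlgebraic k x → ∃ c : k, algebraMap k Ω c = x) ∧
    ∃ (δ T Y : Ω) (P : Polynomial k), IsAlgebraic k δ ∧ Transcendental k T ∧
      P.Separable ∧ P.natDegree = 2 * g + 1 ∧ Y ^ 2 = Polynomial.aeval T P ∧
      IntermediateField.adjoin k ({δ, T, Y} : Set Ω) =
        K ⊔ IntermediateField.adjoin k ({δ} : Set Ω)

end Vale.Agent.P025
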