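import Mathlib

/-!
# Galois descent of a quadratic character
-/

namespace Vale.Agent.P025

variable {k E : Type*} [Field k] [Field E] [Algebra k E] [IsGalois k E]

theorem intCast_units_ne_zero {R : Type*} [Ring R] [Nontrivial R] (ε : ℤˣ) : ((ε : ℤ) : R) ≠ 0 := by
  rcases Int.units_eq_one_or ε with rfl | rfl <;> simp

theorem intCast_units_mul_self {R : Type*} [Ring R] (ε : ℤˣ) :
    ((ε : ℤ) : R) * ((ε : ℤ) : R) = 1 := by
  rcases Int.units_eq_one_or ε with rfl | rfl <;> simp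

/-- A quadratic character of an open subgroup is given by a sign eigenvector. -/
theorem exists_sign_eigen (H : Subgroup (E ≃ₐ[k] E)) (f : H →* ℤˣ)
    (hf : IsOpen ((f.ker.map H.subtype : Subgroup (E ≃ₐ[k] E)) : Set (E ≃ₐ[k] E))) :
    ∃ z : E, z ≠ 0 ∧ ∀ σ : H, (σ : E ≃ₐ[k] E) z = ((f σ : ℤ) : E) * z := by
  by_cases htriv : ∀ σ, f σ = 1
  · exact ⟨1, one_ne_zero, fun σ => by simp [htriv σ]⟩
  push Not at htriv
  obtain ⟨σ0, hσ0⟩ := htriv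
  have hσ0' : f σ0 = -1 := (Int.units_eq_one_or _).resolve_left hσ0
  set U := f.ker.map H.subtype with hU
  have hEU : (IntermediateField.fixedField U).fixingSubgroup = U :=
    InfiniteGalois.fixingSubgroup_fixedField ⟨U, OpenSubgroup.isClosed ⟨U, hf⟩⟩
  obtain ⟨z, hzE, hzne⟩ : ∃ z ∈ IntermediateField.fixedField U, (σ0 : E ≃ₐ[k] E) z ≠ z := by
    by_contra hcon
    push Not at hcon
    have h : (σ0 : E ≃ₐ[k] E) ∈ (IntermediateField.fixedField U).fixingSubgroup :=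
      (IntermediateField.mem_fixingSubgroup_iff _ _).2 hcon
    rw [hEU] at h
    obtain ⟨u, hu, hu'⟩ := h
    exact hσ0 (Subtype.ext hu' ▸ hu)
  have hfix : ∀ σ : H, f σ = 1 → (σ : E ≃ₐ[k] E) z = z :=
    fun σ hσ => hzE ⟨(σ : E ≃ₐ[k] E), ⟨σ, hσ, rfl⟩⟩
  refine ⟨z - (σ0 : E ≃ₐ[k] E) z, sub_ne_zero.2 (Ne.symm hzne), fun σ => ?_⟩
  have e1 : (σ : E ≃ₐ[k] E) ((σ0 : E ≃ₐ[k] E) z) = ((σ * σ0 : H) : E ≃ₐ[k] E) z := rfl
  have e2 : ∀ ρ : H, f ρ = -1 → (ρ : E ≃ₐ[k] E) z = (σ0 : E ≃ₐ[k] E) z := by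
    intro ρ hρ
    have h := congrArg (σ0 : E ≃ₐ[k] E) (hfix (σ0⁻¹ * ρ) (by simp [hρ, hσ0']))
    rw [← AlgEquiv.mul_apply, ← Subgroup.coe_mul, mul_inv_cancel_left] at h
    exact h
  rcases Int.units_eq_one_or (f σ) with h | h
  · rw [h, map_sub, e1, hfix σ h, e2 _ (by simp [h, hσ0'])]
    simp
  · have e3 := hfix (σ * σ0) (by rw [map_mul, h, hσ0']; decide)
    rw [h, map_sub, e1, e2 σ h, e3]
    simp

/-- The norm equation obtained by descent. -/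
theorem exists_norm_eq [CharZero E] {d e : k} {δ P : E}
    (hδ : δ ^ 2 = algebraMap k E d) (hδ0 : δ ≠ 0) (hP : P ^ 2 = algebraMap k E e)
    (τ : E ≃ₐ[k] E) (hτ : τ δ = -δ)
    (H : Subgroup (E ≃ₐ[k] E)) (hH : ∀ σ, σ ∈ H ↔ σ δ = δ) (hττ : τ * τ ∈ H)
    (hconj : ∀ σ ∈ H, τ⁻¹ * σ * τ ∈ H) (f : H →* ℤˣ)
    (hf : IsOpen ((f.ker.map H.subtype : Subgroup (E ≃ₐ[k] E)) : Set (E ≃ₐ[k] E)))
    (hσP : ∀ σ : H, (σ : E ≃ₐ[k] E) P =
      ((f σ : ℤ) : E) * ((f ⟨τ⁻¹ * σ * τ, hconj σ σ.2⟩ : ℤ) : E) * P)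
    (hτP : τ P = ((f ⟨τ * τ, hττ⟩ : ℤ) : E) * P) :
    ∃ x y : k, x ^ 2 - d * y ^ 2 = e := by
  obtain ⟨z, hz0, hz⟩ := exists_sign_eigen H f hf
  have hτz : ∀ σ : H, (σ : E ≃ₐ[k] E) (τ z) =
      ((f ⟨τ⁻¹ * σ * τ, hconj σ σ.2⟩ : ℤ) : E) * τ z := by
    intro σ
    have h := congrArg τ (hz ⟨τ⁻¹ * σ * τ, hconj σ σ.2⟩)
    rw [map_mul, map_intCast, ← AlgEquiv.mul_apply] at h
    simp only [← mul_assoc, mul_inv_cancel, one_mul, AlgEquiv.mul_apply] at h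
    exact h
  have hτz0 : τ z ≠ 0 := by simpa using hz0
  set W : E := z * P / τ z with hW
  have hWH : ∀ σ ∈ H, σ W = W := by
    intro σ hσ
    rw [hW, map_div₀, map_mul, hz ⟨σ, hσ⟩, hσP ⟨σ, hσ⟩, hτz ⟨σ, hσ⟩]
    have h1 := intCast_units_mul_self (R := E) (f ⟨σ, hσ⟩)
    have h2 := intCast_units_ne_zero (R := E) (f ⟨τ⁻¹ * σ * τ, hconj σ hσ⟩)
    field_simp
    linear_combination P * h1
  have hτW : τ W = τ z * P / z := by
    have hττz : τ (τ z) = _ := hz ⟨τ * τ, hττ⟩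
    have h2 := intCast_units_ne_zero (R := E) (f ⟨τ * τ, hττ⟩)
    rw [hW, map_div₀, map_mul, hτP, hττz]
    field_simp
  have hWτW : W * τ W = algebraMap k E e := by
    rw [hτW, hW, ← hP]
    field_simp
  have hττW : τ (τ W) = W := hWH _ hττ
  have hτWH : ∀ σ ∈ H, σ (τ W) = τ W := by
    intro σ hσ
    have h1 := congrArg τ (hWH _ (hconj σ hσ))
    simp only [← AlgEquiv.mul_apply, ← mul_assoc, mul_inv_cancel, one_mul] at h1
    exact h1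
  have fixed : ∀ w : E, (∀ σ ∈ H, σ w = w) → τ w = w →
      ∃ q : k, algebraMap k E q = w := by
    intro w h1 h2
    obtain ⟨q, hq⟩ := (InfiniteGalois.mem_range_algebraMap_iff_fixed w).2 fun σ => by
      have hs : σ δ = δ ∨ σ δ = -δ := by
        rw [← sq_eq_sq_iff_eq_or_eq_neg, ← map_pow, hδ, AlgEquiv.commutes]
      rcases hs with h | h
      · exact h1 σ ((hH σ).2 h)
      · have hm : τ⁻¹ * σ ∈ H := by
          rw [hH, AlgEquiv.mul_apply, h, ← hτ]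
          exact τ.symm_apply_apply δ
        have h3 := congrArg τ (h1 _ hm)
        rw [← AlgEquiv.mul_apply, mul_inv_cancel_left, h2] at h3
        exact h3
    exact ⟨q, hq⟩
  obtain ⟨x, hx⟩ := fixed ((W + τ W) / 2)
    (fun σ hσ => by rw [map_div₀, map_add, hWH σ hσ, hτWH σ hσ, map_ofNat])
    (by rw [map_div₀, map_add, hττW, map_ofNat, add_comm])
  obtain ⟨y, hy⟩ := fixed ((W - τ W) / (2 * δ))
    (fun σ hσ => by
      rw [map_div₀, map_sub, map_mul, hWH σ hσ, hτWH σ hσ, (hH σ).1 hσ, map_ofNat])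
    (by rw [map_div₀, map_sub, map_mul, hττW, hτ, map_ofNat, mul_neg, div_neg, ← neg_div, neg_sub])
  refine ⟨x, y, (algebraMap k E).injective ?_⟩
  rw [map_sub, map_mul, map_pow, map_pow, hx, hy, ← hWτW, ← hδ]
  field_simp
  ring

end Vale.Agent.P025
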