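import Vale.Agent.P025.Defs

/-!
# Field and valuation lemmas
-/

noncomputable section

namespace Vale.Agent.P025

open Polynomial IntermediateField

/-- If `y² ∈ M` then `M(y) = M + M y`. -/
theorem exists_add_mul_of_sq_mem {k Ω : Type*} [Field k] [Field Ω] [Algebra k Ω]
    (M : IntermediateField k Ω) {y : Ω} (hy : y ^ 2 ∈ M) {s : Set Ω}
    (hs : ∀ z ∈ s, z ∈ M ∨ z = y) {z : Ω} (hz : z ∈ adjoin k s) :
    ∃ A ∈ M, ∃ B ∈ M, z = A + B * y := by
  induction hz using IntermediateField.adjoin_induction with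
  | mem x hx =>
    rcases hs x hx with h | rfl
    · exact ⟨x, h, 0, M.zero_mem, by ring⟩
    · exact ⟨0, M.zero_mem, 1, M.one_mem, by ring⟩
  | algebraMap x => exact ⟨_, M.algebraMap_mem x, 0, M.zero_mem, by ring⟩
  | add x x' _ _ h h' =>
    obtain ⟨A, hA, B, hB, rfl⟩ := h
    obtain ⟨A', hA', B', hB', rfl⟩ := h'
    exact ⟨A + A', add_mem hA hA', B + B', add_mem hB hB', by ring⟩
  | mul x x' _ _ h h' =>
    obtain ⟨A, hA, B, hB, rfl⟩ := h
    obtain ⟨A', hA', B', hB', rfl⟩ := h'
    exact ⟨A * A' + B * B' * y ^ 2, add_mem (mul_mem hA hA') (mul_mem (mul_mem hB hB') hy),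
      A * B' + B * A', add_mem (mul_mem hA hB') (mul_mem hB hA'), by ring⟩
  | inv x _ h =>
    obtain ⟨A, hA, B, hB, rfl⟩ := h
    by_cases hM : A + B * y ∈ M
    · exact ⟨_, inv_mem hM, 0, M.zero_mem, by ring⟩
    · have hB0 : B ≠ 0 := by rintro rfl; simp [hA] at hM
      have hN : A ^ 2 - B ^ 2 * y ^ 2 ≠ 0 := by
        intro h
        have h2 : (A - B * y) * (A + B * y) = 0 := by linear_combination h
        rcases mul_eq_zero.1 h2 with h3 | h3
        · have : y = A / B := by rw [eq_div_iff hB0]; linear_combination -h3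
          exact hM (add_mem hA (mul_mem hB (this ▸ div_mem hA hB)))
        · rw [h3] at hM; exact hM M.zero_mem
      have hNM : A ^ 2 - B ^ 2 * y ^ 2 ∈ M :=
        sub_mem (pow_mem hA 2) (mul_mem (pow_mem hB 2) hy)
      refine ⟨A / (A ^ 2 - B ^ 2 * y ^ 2), div_mem hA hNM, -B / (A ^ 2 - B ^ 2 * y ^ 2),
        div_mem (neg_mem hB) hNM, ?_⟩
      apply inv_eq_of_mul_eq_one_right
      field_simp
      ring

/-- A separable non-constant polynomial is not a square in the field generated by a transcendental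
element. -/
theorem sq_ne_aeval_of_separable {F Ω : Type*} [Field F] [Field Ω] [Algebra F Ω] {a : Ω}
    (ha : Transcendental F a) {f : F[X]} (hf : f.Separable) (hd : f.natDegree ≠ 0)
    {R : Ω} (hR : R ∈ adjoin F ({a} : Set Ω)) : R ^ 2 ≠ aeval a f := by
  obtain ⟨p, q, rfl⟩ := (mem_adjoin_simple_iff F R).1 hR
  intro h
  have hinj := transcendental_iff_injective.1 ha
  rcases eq_or_ne q 0 with rfl | hq
  · simp only [map_zero, div_zero, ne_eq, OfNat.ofNat_ne_zero, not_false_eq_true, zero_pow] at h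
    exact hd (by rw [hinj (h.symm.trans (map_zero _).symm)]; simp)
  · have hq' : aeval a q ≠ 0 := fun h' => hq (hinj (h'.trans (map_zero _).symm))
    rw [div_pow, div_eq_iff (pow_ne_zero 2 hq')] at h
    have h2 : p ^ 2 = f * q ^ 2 := hinj (by simpa using h)
    have hqp : q ∣ p := (IsIntegrallyClosed.pow_dvd_pow_iff two_ne_zero).1 (h2 ▸ dvd_mul_left _ _)
    obtain ⟨r, rfl⟩ := hqp
    have h3 : f = r * r := mul_right_cancel₀ (pow_ne_zero 2 hq) (by linear_combination -h2)
    have hr : IsUnit r := hf.squarefree r (by rw [← h3])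
    exact hd (Polynomial.natDegree_eq_zero_iff_degree_le_zero.2
      (le_of_eq (Polynomial.degree_eq_zero_of_isUnit (h3 ▸ hr.mul hr))))

/-- An element of `k(a)`, `a` transcendental, that is algebraic over `k` lies in `k`. -/
theorem exists_eq_of_mem_adjoin_of_isAlgebraic {k Ω : Type*} [Field k] [Field Ω] [Algebra k Ω]
    {a x : Ω} (ha : Transcendental k a) (hx : x ∈ adjoin k ({a} : Set Ω))
    (hxa : IsAlgebraic k x) : ∃ c : k, algebraMap k Ω c = x := by
  obtain ⟨p, q, rfl⟩ := (mem_adjoin_simple_iff k x).1 hx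
  rcases eq_or_ne q 0 with rfl | hq
  · exact ⟨0, by simp⟩
  let E := algebraicClosure k Ω
  have haE : Transcendental E a := fun h => ha (h.restrictScalars k)
  have hinj := transcendental_iff_injective.1 haE
  set x := aeval a p / aeval a q with hxdef
  have hq' : aeval a q ≠ 0 := fun h =>
    hq (transcendental_iff_injective.1 ha (h.trans (map_zero _).symm))
  have hxE : x ∈ E := mem_algebraicClosure_iff.2 hxa
  have h1 : p.map (algebraMap k E) = C (⟨x, hxE⟩ : E) * q.map (algebraMap k E) := by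
    apply hinj
    rw [map_mul, aeval_C, aeval_map_algebraMap, aeval_map_algebraMap]
    show aeval a p = x * aeval a q
    rw [hxdef, div_mul_cancel₀ _ hq']
  refine ⟨p.coeff q.natDegree / q.leadingCoeff, ?_⟩
  have h2 := congrArg (fun f => f.coeff q.natDegree) h1
  simp only [coeff_map, coeff_C_mul] at h2
  have h3 := congrArg (fun z : E => (z : Ω)) h2
  simp only [MulMemClass.coe_mul] at h3
  change algebraMap k Ω (p.coeff q.natDegree) = x * algebraMap k Ω (q.coeff q.natDegree) at h3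
  rw [map_div₀, h3, leadingCoeff, mul_div_assoc, div_self, mul_one]
  simpa using hq

variable {Γ : Type*} [LinearOrderedCommGroupWithZero Γ]

/-- If `ρ` and `2` are units for `v` and `ρ² ∈ M`, elements of `M + M ρ` have values in `v(M)`. -/
theorem exists_map_eq_of_sq_mem {F : Type*} [Field F] (v : Valuation F Γ) {M : Set F}
    (hadd : ∀ x ∈ M, ∀ y ∈ M, x * y ∈ M) (hsub : ∀ x ∈ M, ∀ y ∈ M, x - y ∈ M)
    (hdiv : ∀ x ∈ M, ∀ y ∈ M, x / y ∈ M)
    {ρ : F} (hρ : ρ ^ 2 ∈ M) (hρ1 : v ρ = 1) (h2 : v 2 = 1)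
    {x y : F} (hx : x ∈ M) (hy : y ∈ M) : ∃ m ∈ M, v m = v (x + y * ρ) := by
  have key : max (v (x + y * ρ)) (v (x - y * ρ)) = max (v x) (v y) := by
    have e1 : v (y * ρ) = v y := by rw [map_mul, hρ1, mul_one]
    refine le_antisymm (max_le ?_ ?_) (max_le ?_ ?_)
    · exact (v.map_add _ _).trans (by rw [e1])
    · exact (v.map_sub _ _).trans (by rw [e1])
    · calc v x = v ((x + y * ρ) + (x - y * ρ)) := by
            rw [show (x + y * ρ) + (x - y * ρ) = 2 * x by ring, map_mul, h2, one_mul]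
        _ ≤ _ := v.map_add _ _
    · calc v y = v ((x + y * ρ) - (x - y * ρ)) := by
            rw [show (x + y * ρ) - (x - y * ρ) = 2 * (y * ρ) by ring, map_mul, h2, one_mul, e1]
        _ ≤ _ := v.map_sub _ _
  obtain ⟨m, hm, hmv⟩ : ∃ m ∈ M, v m = max (v (x + y * ρ)) (v (x - y * ρ)) := by
    rcases le_total (v x) (v y) with h | h
    · exact ⟨y, hy, by rw [key, max_eq_right h]⟩
    · exact ⟨x, hx, by rw [key, max_eq_left h]⟩
  rcases le_total (v (x - y * ρ)) (v (x + y * ρ)) with h | h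
  · exact ⟨m, hm, by rw [hmv, max_eq_left h]⟩
  · rw [max_eq_right h] at hmv
    rcases eq_or_ne (v m) 0 with h0 | h0
    · exact ⟨m, hm, by rw [h0]; exact le_antisymm zero_le (h.trans (by rw [← hmv, h0]))⟩
    refine ⟨(x * x - y * y * ρ ^ 2) / m,
      hdiv _ (hsub _ (hadd _ hx _ hx) _ (hadd _ (hadd _ hy _ hy) _ hρ)) _ hm, ?_⟩
    rw [show x * x - y * y * ρ ^ 2 = (x + y * ρ) * (x - y * ρ) by ring, map_div₀, map_mul, ← hmv,
      mul_div_assoc, div_self h0, mul_one]

end Vale.Agent.P025
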