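import Mathlib

/-!
# A non-split quaternion algebra over every finite extension of `ℚ_p`
-/

namespace Vale.Agent.P025

/-- In a proper ultrametric field of characteristic zero having an element of norm in `(0,1)`
there is a pair `d, e` with `‖e‖ < 1` such that `e` is not of the form `x² - d y²`. -/
theorem exists_nonnorm_of_proper {k : Type*} [NormedField k] [IsUltrametricDist k]
    [ProperSpace k] [CharZero k] (hp : ∃ x : k, x ≠ 0 ∧ ‖x‖ < 1) :
    ∃ d e : k, d ≠ 0 ∧ e ≠ 0 ∧ (∀ x y : k, x ^ 2 - d * y ^ 2 ≠ e) ∧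
      ∀ n : ℕ, n ≠ 0 → e ^ n ≠ 1 := by
  -- congruence modulo the maximal ideal on the unit ball
  let O := {x : k // ‖x‖ ≤ 1}
  let st : Setoid O :=
    { r := fun a b => ‖a.1 - b.1‖ < 1
      iseqv := by
        refine ⟨fun a => by simp, fun {a b} h => ?_, fun {a b c} h h' => ?_⟩
        · rwa [norm_sub_rev]
        · have := IsUltrametricDist.norm_add_le_max (a.1 - b.1) (b.1 - c.1)
          rw [sub_add_sub_cancel] at this
          exact this.trans_lt (max_lt h h') }
  have hfin : Finite (Quotient st) := by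
    obtain ⟨t, htK, htf, hcov⟩ :=
      (isCompact_closedBall (0 : k) 1).finite_cover_balls (e := (1 : ℝ)) one_pos
    have : Finite t := htf
    let f : t → Quotient st := fun s => Quotient.mk st ⟨s.1, by
      simpa using htK s.2⟩
    refine Finite.of_surjective f fun q => ?_
    induction q using Quotient.ind with
    | _ a =>
      have := hcov (show a.1 ∈ Metric.closedBall (0 : k) 1 by simpa using a.2)
      obtain ⟨s, hs, has⟩ := Set.mem_iUnion₂.1 this
      refine ⟨⟨s, hs⟩, Quotient.sound ?_⟩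
      show ‖s - a.1‖ < 1
      rw [norm_sub_rev]
      simpa [dist_eq_norm] using has
  -- the map `u ↦ u² + u`
  have hg : ∀ a : O, ‖a.1 ^ 2 + a.1‖ ≤ 1 := fun a => by
    refine (IsUltrametricDist.norm_add_le_max _ _).trans (max_le ?_ a.2)
    rw [norm_pow]
    exact pow_le_one₀ (norm_nonneg _) a.2
  let g : Quotient st → Quotient st :=
    Quotient.map (fun a => ⟨a.1 ^ 2 + a.1, hg a⟩) (by
      intro a b (h : ‖a.1 - b.1‖ < 1)
      show ‖(a.1 ^ 2 + a.1) - (b.1 ^ 2 + b.1)‖ < 1
      have e1 : (a.1 ^ 2 + a.1) - (b.1 ^ 2 + b.1) = (a.1 - b.1) * (a.1 + b.1 + 1) := by ring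
      rw [e1, norm_mul]
      have h2 : ‖a.1 + b.1 + 1‖ ≤ 1 :=
        (IsUltrametricDist.norm_add_le_max _ _).trans
          (max_le ((IsUltrametricDist.norm_add_le_max _ _).trans (max_le a.2 b.2)) (by simp))
      calc ‖a.1 - b.1‖ * ‖a.1 + b.1 + 1‖ ≤ ‖a.1 - b.1‖ * 1 := by gcongr
        _ < 1 := by simpa using h)
  have hns : ¬ Function.Surjective g := by
    intro hs
    have hi := (Finite.injective_iff_surjective.2 hs)
      (a₁ := Quotient.mk st ⟨0, by simp⟩) (a₂ := Quotient.mk st ⟨-1, by simp⟩) (by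
        simp only [g, Quotient.map_mk]
        congr 1
        apply Subtype.ext
        ring)
    have := Quotient.exact hi
    change ‖(0 : k) - (-1)‖ < 1 at this
    simp at this
  simp only [Function.Surjective, not_forall, not_exists] at hns
  obtain ⟨q, hq⟩ := hns
  obtain ⟨⟨c, hc⟩, rfl⟩ := Quotient.exists_rep q
  have key : ∀ u : k, ‖u‖ ≤ 1 → ‖u ^ 2 + u - c‖ = 1 := by
    intro u hu
    refine le_antisymm ?_ (not_lt.1 fun h => hq (Quotient.mk st ⟨u, hu⟩) ?_)
    · rw [sub_eq_add_neg]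
      exact (IsUltrametricDist.norm_add_le_max _ _).trans (max_le (hg ⟨u, hu⟩) (by simpa using hc))
    · exact Quotient.sound h
  -- the anisotropic form
  have form : ∀ x y : k, ‖x ^ 2 + x * y - c * y ^ 2‖ = max ‖x‖ ‖y‖ ^ 2 := by
    intro x y
    rcases eq_or_ne y 0 with rfl | hy
    · simp
    · rcases le_total ‖x‖ ‖y‖ with hxy | hxy
      · have h1 := key (x / y) (by rw [norm_div]; exact (div_le_one (norm_pos_iff.2 hy)).2 hxy)
        have e1 : x ^ 2 + x * y - c * y ^ 2 = ((x / y) ^ 2 + x / y - c) * y ^ 2 := by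
          field_simp
        rw [e1, norm_mul, h1, norm_pow, max_eq_right hxy, one_mul]
      · have hx : x ≠ 0 := by
          rintro rfl
          simp at hxy
          exact hy hxy
        have ht : ‖y / x‖ ≤ 1 := by
          rw [norm_div]; exact (div_le_one (norm_pos_iff.2 hx)).2 hxy
        have e1 : x ^ 2 + x * y - c * y ^ 2 =
            (1 + y / x - c * (y / x) ^ 2) * x ^ 2 := by field_simp
        rw [e1, norm_mul, norm_pow, max_eq_left hxy]
        suffices ‖1 + y / x - c * (y / x) ^ 2‖ = 1 by rw [this, one_mul]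
        generalize y / x = t at ht
        rcases eq_or_lt_of_le ht with h1 | h1
        · have ht0 : t ≠ 0 := by rintro rfl; simp at h1
          have h2 := key t⁻¹ (by rw [norm_inv, h1]; simp)
          have e2 : 1 + t - c * t ^ 2 = (t⁻¹ ^ 2 + t⁻¹ - c) * t ^ 2 := by field_simp
          rw [e2, norm_mul, h2, norm_pow, h1]; simp
        · have hsmall : ‖t - c * t ^ 2‖ < 1 := by
            rw [sub_eq_add_neg]
            refine (IsUltrametricDist.norm_add_le_max _ _).trans_lt (max_lt h1 ?_)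
            rw [norm_neg, norm_mul, norm_pow]
            calc ‖c‖ * ‖t‖ ^ 2 ≤ 1 * ‖t‖ ^ 2 := by gcongr
              _ < 1 := by rw [one_mul]; exact pow_lt_one₀ (norm_nonneg _) h1 two_ne_zero
          rw [add_sub_assoc, IsUltrametricDist.norm_add_eq_max_of_norm_ne_norm]
          · rw [norm_one, max_eq_left hsmall.le]
          · rw [norm_one]; exact hsmall.ne'
  -- a uniformizer
  obtain ⟨x₀, hx₀, hx₀'⟩ := hp
  have hcpt : IsCompact (Metric.ball (0 : k) 1) :=
    Metric.isCompact_of_isClosed_isBounded (IsUltrametricDist.isClosed_ball _ _)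
      Metric.isBounded_ball
  obtain ⟨π, hπ, hmax⟩ := hcpt.exists_isMaxOn ⟨x₀, by simpa using hx₀'⟩
    continuous_norm.continuousOn
  have hπ1 : ‖π‖ < 1 := by simpa using hπ
  have hπ0 : 0 < ‖π‖ :=
    lt_of_lt_of_le (norm_pos_iff.2 hx₀) (hmax (by simpa using hx₀' : x₀ ∈ Metric.ball (0:k) 1))
  have hnorm : ∀ a b : k, a ^ 2 - (1 + 4 * c) * b ^ 2 ≠ π := by
    intro a b h
    have h' := form (a - b) (2 * b)
    have e1 : (a - b) ^ 2 + (a - b) * (2 * b) - c * (2 * b) ^ 2 =
        a ^ 2 - (1 + 4 * c) * b ^ 2 := by ring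
    rw [e1, h] at h'
    rcases lt_or_ge (max ‖a - b‖ ‖2 * b‖) 1 with hM | hM
    · have hle : max ‖a - b‖ ‖2 * b‖ ≤ ‖π‖ := by
        refine max_le ?_ ?_
        · exact hmax (by simpa using (le_max_left _ _).trans_lt hM :
            a - b ∈ Metric.ball (0:k) 1)
        · exact hmax (by simpa using (le_max_right ‖a - b‖ _).trans_lt hM :
            2 * b ∈ Metric.ball (0:k) 1)
      have : ‖π‖ ≤ ‖π‖ ^ 2 :=
        le_trans h'.le (pow_le_pow_left₀ (le_trans (norm_nonneg _) (le_max_left _ _)) hle 2)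
      nlinarith
    · nlinarith
  refine ⟨1 + 4 * c, π, fun h0 => ?_, norm_pos_iff.1 hπ0, hnorm, fun n hn h => ?_⟩
  · have h2 := form (1 : k) (-2)
    have e1 : (1 : k) ^ 2 + 1 * (-2) - c * (-2) ^ 2 = -(1 + 4 * c) := by ring
    rw [e1, h0] at h2
    simp only [neg_zero, norm_zero, norm_one] at h2
    have : (1 : ℝ) ≤ max 1 ‖(-2 : k)‖ := le_max_left _ _
    nlinarith
  · have := congrArg (‖·‖) h
    simp only [norm_pow, norm_one] at this
    exact (pow_lt_one₀ (norm_nonneg _) hπ1 hn).ne this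

/-- Over every finite extension of `ℚ_p` some `e` is not of the form `x² - d y²`. -/
theorem exists_nonnorm (p : ℕ) [Fact p.Prime] (k : Type*) [Field k] [Algebra ℚ_[p] k]
    [FiniteDimensional ℚ_[p] k] :
    ∃ d e : k, d ≠ 0 ∧ e ≠ 0 ∧ (∀ x y : k, x ^ 2 - d * y ^ 2 ≠ e) ∧
      ∀ n : ℕ, n ≠ 0 → e ^ n ≠ 1 := by
  have : Algebra.IsAlgebraic ℚ_[p] k := Algebra.IsAlgebraic.of_finite _ _
  let nf : NormedField k := spectralNorm.normedField ℚ_[p] k
  let nnf : NontriviallyNormedField k := spectralNorm.nontriviallyNormedField ℚ_[p] k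
  let na : NormedAlgebra ℚ_[p] k := spectralNorm.normedAlgebra ℚ_[p] k
  have : IsUltrametricDist k :=
    IsUltrametricDist.isUltrametricDist_of_isNonarchimedean_norm
      (isNonarchimedean_spectralNorm (K := ℚ_[p]) (L := k))
  have : ProperSpace k := FiniteDimensional.proper ℚ_[p] k
  have : CharZero k := charZero_of_injective_algebraMap (algebraMap ℚ_[p] k).injective
  refine exists_nonnorm_of_proper ⟨algebraMap ℚ_[p] k (p : ℚ_[p]), ?_, ?_⟩
  · simp [(Fact.out : p.Prime).ne_zero]
  · rw [norm_algebraMap']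
    exact Padic.norm_p_lt_one

end Vale.Agent.P025
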