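import Vale.Agent.P025.Sections
import Vale.Agent.P025.Descent

/-!
# The curves have no section
-/

noncomputable section

namespace Vale.Agent.P025

open IntermediateField

variable {k : Type} [Field k] [CharZero k]

/-- The sign by which `g` moves `x`, for a `g` preserving `x²`. -/
theorem exists_sign {F : Type*} [Field F] [CharZero F] {S : Type*} [FunLike S F F] [RingHomClass S F F]
    (g : S) {x : F} (h : g (x ^ 2) = x ^ 2) : ∃ ε : ℤˣ, g x = ((ε : ℤ) : F) * x := by
  rw [map_pow, sq_eq_sq_iff_eq_or_eq_neg] at h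
  rcases h with h | h
  · exact ⟨1, by simpa using h⟩
  · exact ⟨-1, by simpa using h⟩

theorem sign_unique {F : Type*} [Field F] [CharZero F] {x : F} (hx : x ≠ 0) {ε ε' : ℤˣ}
    (h : ((ε : ℤ) : F) * x = ((ε' : ℤ) : F) * x) : ε = ε' :=
  Units.ext (Int.cast_injective (mul_right_cancel₀ hx h))

namespace Data

variable (D : Data k)

theorem noSection : ¬ HasSection D.K := by
  rintro ⟨s, hcont, hs⟩
  obtain ⟨r, hr⟩ := IsAlgClosed.exists_pow_nat_eq (D.a + D.b * D.δ) two_pos
  obtain ⟨L, hLf, hLu, hrL, hδL⟩ := D.sqrt_unramified hr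
  have hLle : L ≤ unrClosure D.K := le_sSup ⟨hLf, hLu⟩
  let G := (kbar k) ≃ₐ[k] (kbar k)
  let S := (unrClosure D.K) ≃ₐ[D.K] (unrClosure D.K)
  haveI : IsAlgClosed (kbar k) := IsAlgClosure.isAlgClosed k
  haveI : IsGalois k (kbar k) := IsAlgClosure.isGalois k (kbar k)
  haveI : CharZero (kbar k) := charZero_of_injective_algebraMap (algebraMap k (kbar k)).injective
  haveI : CharZero (unrClosure D.K) :=
    charZero_of_injective_algebraMap (algebraMap k (unrClosure D.K)).injective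
  let ρ : unrClosure D.K := ⟨r, hLle hrL⟩
  let δt : unrClosure D.K := ⟨D.δ, hLle hδL⟩
  let δb : kbar k := ⟨D.δ, mem_algebraicClosure_iff.2 D.isAlgebraic_δ⟩
  have hδb : δb ^ 2 = algebraMap k (kbar k) D.d := Subtype.ext D.hδ
  have hδb0 : δb ≠ 0 := fun h => D.δ_ne (congrArg Subtype.val h)
  have hρ0 : ρ ≠ 0 := by
    intro h
    have h' : r = 0 := congrArg Subtype.val h
    rw [h', zero_pow two_ne_zero, D.a_add_bδ] at hr
    exact D.T_ne hr.symm
  have act : ∀ (σ : G) (x : unrClosure D.K) (z : kbar k), (x : Omega k) = z →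
      ((s σ x : unrClosure D.K) : Omega k) = (σ z : kbar k) := fun σ x z h => hs σ x z h
  -- image of `ρ²`
  have sq_image : ∀ (g : S),
      ((g ρ : unrClosure D.K) : Omega k) ^ 2 =
        D.a + D.b * ((g δt : unrClosure D.K) : Omega k) := by
    intro g
    have h2 : ρ ^ 2 = algebraMap D.K _ ⟨D.a, D.a_mem⟩ + algebraMap D.K _ ⟨D.b, D.b_mem⟩ * δt :=
      Subtype.ext hr
    have h3 := congrArg g h2
    rw [map_pow, map_add, map_mul, g.commutes, g.commutes] at h3
    exact congrArg Subtype.val h3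
  -- stabiliser of `√d`
  let H : Subgroup G := MulAction.stabilizer G δb
  have memH : ∀ σ : G, σ ∈ H ↔ σ δb = δb := fun σ => Iff.rfl
  have hsign : ∀ σ : H, ∃ ε : ℤˣ,
      s (σ : G) ρ = ((ε : ℤ) : unrClosure D.K) * ρ := by
    intro σ
    refine exists_sign (s (σ : G)) (Subtype.ext ?_)
    rw [map_pow]
    show ((s (σ : G) ρ : unrClosure D.K) : Omega k) ^ 2 = r ^ 2
    rw [sq_image, hr, act (σ : G) δt δb rfl, (memH _).1 σ.2]
  choose f0 hf0 using hsign
  have hf0_mul : ∀ σ σ' : H, f0 (σ * σ') = f0 σ * f0 σ' := by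
    intro σ σ'
    apply sign_unique hρ0
    rw [← hf0 (σ * σ'), Subgroup.coe_mul, map_mul, AlgEquiv.mul_apply, hf0 σ', map_mul,
      map_intCast, hf0 σ, Units.val_mul, Int.cast_mul]
    ring
  let f : H →* ℤˣ := MonoidHom.mk' f0 hf0_mul
  have hker : ((f.ker.map H.subtype : Subgroup G) : Set G) =
      (H : Set G) ∩ s ⁻¹' (MulAction.stabilizer S ρ : Set S) := by
    ext σ
    constructor
    · rintro ⟨u, hu, rfl⟩
      refine ⟨u.2, ?_⟩
      show s (u : G) ρ = ρ
      rw [hf0 u, show f0 u = 1 from hu]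
      simp
    · rintro ⟨h1, h2⟩
      refine ⟨⟨σ, h1⟩, ?_, rfl⟩
      apply sign_unique hρ0
      show ((f0 ⟨σ, h1⟩ : ℤ) : unrClosure D.K) * ρ = _
      rw [← hf0 ⟨σ, h1⟩]
      have h2' : s σ ρ = ρ := MulAction.mem_stabilizer_iff.1 h2
      rw [h2']
      simp
  haveI : Algebra.IsIntegral D.K (unrClosure D.K) := by
    have : Algebra.IsAlgebraic D.K (unrClosure D.K) := by
      rw [unrClosure, sSup_eq_iSup']
      exact IntermediateField.isAlgebraic_iSup fun i => by
        have := i.2.1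
        exact Algebra.IsAlgebraic.of_finite _ _
    infer_instance
  have hopen : IsOpen ((f.ker.map H.subtype : Subgroup G) : Set G) := by
    rw [hker]
    exact (stabilizer_isOpen_of_isIntegral (K := k) (L := kbar k) δb).inter
      ((stabilizer_isOpen_of_isIntegral (K := D.K) (L := unrClosure D.K) ρ).preimage hcont)
  -- an element moving `√d`
  obtain ⟨τ, hτ⟩ : ∃ τ : G, τ δb ≠ δb := by
    by_contra h
    push Not at h
    obtain ⟨q, hq⟩ := (InfiniteGalois.mem_range_algebraMap_iff_fixed δb).2 h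
    exact D.d_not_sq q ((algebraMap k (kbar k)).injective (by rw [map_pow, hq, hδb]))
  have hτδ : τ δb = -δb := by
    have h : τ δb = δb ∨ τ δb = -δb := by
      rw [← sq_eq_sq_iff_eq_or_eq_neg, ← map_pow, hδb, AlgEquiv.commutes]
    exact h.resolve_left hτ
  have hτH : ∀ σ ∈ H, τ⁻¹ * σ * τ ∈ H := by
    intro σ hσ
    rw [memH] at hσ ⊢
    rw [AlgEquiv.mul_apply, AlgEquiv.mul_apply, hτδ, map_neg σ, hσ, ← hτδ]
    exact τ.symm_apply_apply δb
  have hττ : τ * τ ∈ H := by
    rw [memH, AlgEquiv.mul_apply, hτδ, map_neg, hτδ, neg_neg]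
  -- the product of the two square roots
  let ρP : unrClosure D.K := ρ * s τ ρ
  have hP2 : (ρP : Omega k) ^ 2 = algebraMap k (Omega k) D.e := by
    show (r * ((s τ ρ : unrClosure D.K) : Omega k)) ^ 2 = _
    rw [mul_pow, hr, sq_image, act τ δt δb rfl, hτδ, ← D.conic, ← D.hδ]
    show (D.a + D.b * D.δ) * (D.a + D.b * -D.δ) = _
    ring
  let P : kbar k := ⟨(ρP : Omega k), mem_algebraicClosure_iff.2
    (IsAlgebraic.of_pow two_pos (hP2 ▸ isAlgebraic_algebraMap _))⟩
  have hP : ∀ (g : G) (ε : ℤˣ), s g ρP = ((ε : ℤ) : unrClosure D.K) * ρP →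
      g P = ((ε : ℤ) : kbar k) * P := by
    intro g ε h
    apply Subtype.ext
    rw [← act g ρP P rfl, h]
    simp [P]
  obtain ⟨x, y, hxy⟩ := exists_norm_eq (d := D.d) (e := D.e) hδb hδb0 (P := P) (Subtype.ext hP2)
    τ hτδ H memH hττ hτH f hopen
    (fun σ => by
      have h := hP (σ : G) (f σ * f ⟨τ⁻¹ * σ * τ, hτH σ σ.2⟩) ?_
      · rw [h]; push_cast; ring
      · have h1 : s (σ : G) (s τ ρ) = s τ (s (τ⁻¹ * σ * τ) ρ) := by
          rw [← AlgEquiv.mul_apply, ← map_mul, ← AlgEquiv.mul_apply (s τ), ← map_mul,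
            ← mul_assoc, mul_inv_cancel_left]
        show s (σ : G) (ρ * s τ ρ) = _
        rw [map_mul, h1, hf0 σ, hf0 ⟨_, hτH σ σ.2⟩, map_mul, map_intCast]
        show _ = (((f0 σ * f0 _ : ℤˣ) : ℤ) : unrClosure D.K) * (ρ * s τ ρ)
        push_cast
        ring)
    (hP τ _ (by
      show s τ (ρ * s τ ρ) = _
      rw [map_mul, ← AlgEquiv.mul_apply (s τ) (s τ), ← map_mul s, hf0 ⟨τ * τ, hττ⟩]
      show _ = ((f0 _ : ℤ) : unrClosure D.K) * (ρ * s τ ρ)
      ring))
  exact D.nonnorm x y hxy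

end Data

end Vale.Agent.P025
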