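import Vale.Agent.P025.Curve

/-!
# The curves have neither a rational point nor a section
-/

noncomputable section

namespace Vale.Agent.P025

open IntermediateField

theorem IsPlace.valuation_const {k F : Type} [Field k] [Field F] [Algebra k F]
    {A : ValuationSubring F} (hA : IsPlace k A) {c : k} (hc : c ≠ 0) :
    A.valuation (algebraMap k F c) = 1 := by
  have h1 := (A.valuation_le_one_iff _).2 (hA.2 c)
  have h2 := (A.valuation_le_one_iff _).2 (hA.2 c⁻¹)
  rw [map_inv₀, map_inv₀] at h2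
  exact le_antisymm h1 ((inv_le_one₀ (zero_lt_iff.2 (by simpa using hc))).1 h2)

theorem eq_zero_of_valuation_lt_one {k F : Type} [Field k] [Field F] [Algebra k F]
    {A : ValuationSubring F} (hA : IsPlace k A) {c : k}
    (hc : A.valuation (algebraMap k F c) < 1) : c = 0 :=
  by_contra fun h => hc.ne (hA.valuation_const h)

/-- The value of `a + b δ` is a square of a value of the ground field. -/
theorem valuation_param {k F : Type} [Field k] [CharZero k] [Field F] [Algebra k F]
    {A : ValuationSubring F} (hA : IsPlace k A) {d e : k} (hd : d ≠ 0) (he : e ≠ 0)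
    {a b δ y : F} {m : ℕ} (hδ : δ ^ 2 = algebraMap k F d)
    (hc : a ^ 2 - algebraMap k F d * b ^ 2 = algebraMap k F e)
    (hy : y ^ 2 = a ^ (2 * m + 1) + 1) :
    A.valuation (a + b * δ) = 1 ∨ A.valuation (a + b * δ) = A.valuation (y / a ^ m) ^ 2 ∨
      A.valuation (a + b * δ) = A.valuation (a ^ m / y) ^ 2 := by
  have h2 : A.valuation (2 : F) = 1 := by
    rw [← map_ofNat (algebraMap k F) 2]; exact hA.valuation_const two_ne_zero
  have hvd := hA.valuation_const hd
  have hve := hA.valuation_const he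
  set v := A.valuation with hv
  have hvδ : v δ = 1 := by
    have := congrArg v hδ
    rw [map_pow, hvd, pow_eq_one_iff_of_nonneg zero_le two_ne_zero] at this
    exact this
  have hb : v b ≤ max (v a) 1 := by
    have h1 : v b ^ 2 ≤ max (v a) 1 ^ 2 := by
      have : v (algebraMap k F d * b ^ 2) ≤ max (v a) 1 ^ 2 := by
        rw [show algebraMap k F d * b ^ 2 = a ^ 2 - algebraMap k F e by linear_combination -hc]
        refine (v.map_sub _ _).trans (max_le ?_ ?_)
        · rw [map_pow]; exact pow_le_pow_left₀ zero_le (le_max_left _ _) 2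
        · rw [hve]; exact one_le_pow₀ (le_max_right _ _)
      rwa [map_mul, hvd, one_mul, map_pow] at this
    exact (pow_le_pow_iff_left₀ zero_le zero_le two_ne_zero).1 h1
  have hprod : v (a + b * δ) * v (a - b * δ) = 1 := by
    rw [← map_mul, show (a + b * δ) * (a - b * δ) = algebraMap k F e by
      rw [← hc, ← hδ]; ring, hve]
  have hle : v (a + b * δ) ≤ max (v a) 1 ∧ v (a - b * δ) ≤ max (v a) 1 := by
    constructor
    · exact (v.map_add _ _).trans (max_le (le_max_left _ _) (by rw [map_mul, hvδ, mul_one]; exact hb))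
    · exact (v.map_sub _ _).trans (max_le (le_max_left _ _) (by rw [map_mul, hvδ, mul_one]; exact hb))
  rcases le_or_gt (v a) 1 with ha | ha
  · left
    rw [max_eq_right ha] at hle
    refine le_antisymm hle.1 ?_
    calc 1 = v (a + b * δ) * v (a - b * δ) := hprod.symm
      _ ≤ v (a + b * δ) * 1 := mul_le_mul_right hle.2 _
      _ = _ := mul_one _
  · right
    rw [max_eq_left ha.le] at hle
    have hy2 : v y ^ 2 = v a ^ (2 * m + 1) := by
      have h3 : 1 < v a ^ (2 * m + 1) := one_lt_pow₀ ha (by omega)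
      rw [← map_pow, hy, Valuation.map_add_eq_of_lt_left, map_pow]
      rwa [map_pow, map_one]
    have hva : v a ≠ 0 := (zero_lt_one.trans ha).ne'
    have hmax : v a ≤ max (v (a + b * δ)) (v (a - b * δ)) := by
      calc v a = v ((a + b * δ) + (a - b * δ)) := by
            rw [show (a + b * δ) + (a - b * δ) = 2 * a by ring, map_mul, h2, one_mul]
        _ ≤ _ := v.map_add _ _
    rcases le_max_iff.1 hmax with h | h
    · left
      rw [le_antisymm hle.1 h, map_div₀, map_pow, div_pow, hy2, eq_div_iff (by simp [hva])]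
      rw [← pow_mul, ← pow_succ']
      ring_nf
    · right
      rw [le_antisymm hle.2 h] at hprod
      rw [eq_inv_of_mul_eq_one_left hprod, map_div₀, map_pow, div_pow, hy2, inv_eq_iff_eq_inv,
        inv_div, eq_div_iff (by simp [hva])]
      rw [← pow_mul, ← pow_succ']
      ring_nf

namespace Data

variable {k : Type} [Field k] [CharZero k] (D : Data k)

theorem noPoint : ¬ HasRationalPoint D.K := by
  rintro ⟨A, hA, hres⟩
  set v := A.valuation with hv
  let a : D.K := ⟨D.a, D.a_mem⟩
  let b : D.K := ⟨D.b, D.b_mem⟩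
  have hc : a ^ 2 - algebraMap k D.K D.d * b ^ 2 = algebraMap k D.K D.e := Subtype.ext D.conic
  have hd := hA.valuation_const D.d_ne
  have hne := hA.valuation_const D.e_ne
  -- residues
  have res : ∀ z : D.K, v z ≤ 1 → ∃ c : k, v (z - algebraMap k D.K c) < 1 ∧
      v (z ^ 2 - algebraMap k D.K (c ^ 2)) < 1 := fun z hz => by
    obtain ⟨c, hc⟩ := hres z ((A.valuation_le_one_iff _).1 hz)
    refine ⟨c, hc, ?_⟩
    rw [map_pow, sq_sub_sq, map_mul]
    refine lt_of_le_of_lt (mul_le_mul_left ?_ _) (by rwa [one_mul])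
    exact (v.map_add _ _).trans (max_le hz ((A.valuation_le_one_iff _).2 (hA.2 c)))
  rcases le_or_gt (v a) 1 with ha | ha
  · have hb : v b ≤ 1 := by
      have : v (algebraMap k D.K D.d * b ^ 2) ≤ 1 := by
        rw [show algebraMap k D.K D.d * b ^ 2 = a ^ 2 - algebraMap k D.K D.e by
          linear_combination -hc]
        exact (v.map_sub _ _).trans (max_le (by rw [map_pow]; exact pow_le_one₀ zero_le ha) hne.le)
      rw [map_mul, hd, one_mul, map_pow] at this
      exact (pow_le_one_iff_of_nonneg zero_le two_ne_zero).1 this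
    obtain ⟨x, -, hx⟩ := res a ha
    obtain ⟨y, -, hy⟩ := res b hb
    apply D.nonnorm x y
    refine sub_eq_zero.1 (eq_zero_of_valuation_lt_one hA ?_)
    rw [show algebraMap k D.K (x ^ 2 - D.d * y ^ 2 - D.e) =
        algebraMap k D.K D.d * (b ^ 2 - algebraMap k D.K (y ^ 2)) -
          (a ^ 2 - algebraMap k D.K (x ^ 2)) by
      simp only [map_sub, map_mul]; linear_combination hc]
    exact (v.map_sub _ _).trans_lt (max_lt (by rwa [map_mul, hd, one_mul]) hx)
  · have ha0 : a ≠ 0 := by rintro h; rw [h, map_zero] at ha; exact not_lt_of_ge zero_le ha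
    have h1 : v (1 - algebraMap k D.K D.d * (b / a) ^ 2) < 1 := by
      rw [show 1 - algebraMap k D.K D.d * (b / a) ^ 2 = algebraMap k D.K D.e / a ^ 2 by
        field_simp; linear_combination hc]
      rw [map_div₀, map_pow, hne, one_div, inv_lt_one₀ (pow_pos (zero_lt_one.trans ha) 2)]
      exact one_lt_pow₀ ha two_ne_zero
    have hba : v (b / a) ≤ 1 := by
      refine (pow_le_one_iff_of_nonneg zero_le two_ne_zero).1 ?_
      have : v (algebraMap k D.K D.d * (b / a) ^ 2) ≤ 1 := by
        rw [← sub_sub_cancel (1 : D.K) (algebraMap k D.K D.d * (b / a) ^ 2)]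
        exact (v.map_sub _ _).trans (max_le (by rw [map_one]) h1.le)
      rwa [map_mul, hd, one_mul, map_pow] at this
    obtain ⟨q, -, hq⟩ := res (b / a) hba
    have h2 : 1 - D.d * q ^ 2 = 0 := by
      refine eq_zero_of_valuation_lt_one hA ?_
      rw [show algebraMap k D.K (1 - D.d * q ^ 2) =
          (1 - algebraMap k D.K D.d * (b / a) ^ 2) +
            algebraMap k D.K D.d * ((b / a) ^ 2 - algebraMap k D.K (q ^ 2)) by
        simp only [map_sub, map_mul, map_one]; ring]
      exact (v.map_add _ _).trans_lt (max_lt h1 (by rwa [map_mul, hd, one_mul]))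
    have hq0 : q ≠ 0 := by rintro rfl; simp at h2
    exact D.d_not_sq q⁻¹ (by field_simp; linear_combination h2)

variable {r : Omega k} (hr : r ^ 2 = D.a + D.b * D.δ)

include hr in
theorem sqrt_unramified :
    ∃ L : IntermediateField D.K (Omega k), FiniteDimensional D.K L ∧ IsUnramified k D.K L ∧
      r ∈ L ∧ D.δ ∈ L := by
  set K := D.K with hK
  let M : IntermediateField K (Omega k) := adjoin K {D.δ}
  let L : IntermediateField K (Omega k) := adjoin K {D.δ, r}
  have hδK : IsIntegral K D.δ := (D.isAlgebraic_δ.tower_top K).isIntegral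
  have hrK : IsIntegral K r := by
    refine IsIntegral.of_pow two_pos ?_
    rw [hr]
    exact (isIntegral_algebraMap (x := (⟨D.a, D.a_mem⟩ : K))).add
      ((isIntegral_algebraMap (x := (⟨D.b, D.b_mem⟩ : K))).mul hδK)
  have hδL : D.δ ∈ L := subset_adjoin _ _ (by simp)
  have hrL : r ∈ L := subset_adjoin _ _ (by simp)
  refine ⟨L, finiteDimensional_adjoin (by rintro z (rfl | rfl) <;> assumption), ?_, hrL, hδL⟩
  intro A hA z
  set v := A.valuation with hv
  let δ : L := ⟨D.δ, hδL⟩
  let ρ : L := ⟨r, hrL⟩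
  let a : L := algebraMap K L ⟨D.a, D.a_mem⟩
  let b : L := algebraMap K L ⟨D.b, D.b_mem⟩
  let y : L := algebraMap K L ⟨D.y, D.y_mem⟩
  have h2 : v (2 : L) = 1 := by
    rw [← map_ofNat (algebraMap k L) 2]; exact hA.valuation_const two_ne_zero
  have hδ : δ ^ 2 = algebraMap k L D.d := Subtype.ext D.hδ
  have hρ : ρ ^ 2 = a + b * δ := Subtype.ext hr
  -- a square root in `K` of the value of `a + b δ`
  obtain ⟨q, hq⟩ : ∃ q : K, v (a + b * δ) = v (algebraMap K L q) ^ 2 := by
    rcases valuation_param hA D.d_ne D.e_ne hδ (Subtype.ext D.conic : a ^ 2 - algebraMap k L D.d * b ^ 2 = algebraMap k L D.e)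
      (Subtype.ext D.y_sq : y ^ 2 = a ^ (2 * D.m + 1) + 1) with h | h | h
    · exact ⟨1, by rw [h, map_one, map_one, one_pow]⟩
    · exact ⟨⟨D.y, D.y_mem⟩ / ⟨D.a, D.a_mem⟩ ^ D.m, by rw [h, map_div₀ (algebraMap K L), map_pow (algebraMap K L)]⟩
    · exact ⟨⟨D.a, D.a_mem⟩ ^ D.m / ⟨D.y, D.y_mem⟩, by rw [h, map_div₀ (algebraMap K L), map_pow (algebraMap K L)]⟩
  have hu0 : a + b * δ ≠ 0 := by
    intro h
    exact D.T_ne (by rw [← D.a_add_bδ]; exact congrArg (fun z : L => (z : Omega k)) h)
  set Q : L := algebraMap K L q with hQ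
  have hQ0 : Q ≠ 0 := fun h => by
    rw [h, map_zero, zero_pow two_ne_zero, map_eq_zero] at hq; exact hu0 hq
  -- step 1: values of `K + K δ`
  let S0 : Set L := Set.range (algebraMap K L)
  have step1 : ∀ w : L, (w : Omega k) ∈ M → ∃ x : K, v (algebraMap K L x) = v w := by
    intro w hw
    have hsq : D.δ ^ 2 ∈ (⊥ : IntermediateField K (Omega k)) :=
      IntermediateField.mem_bot.2 ⟨algebraMap k K D.d, D.hδ.symm⟩
    obtain ⟨x, hx, x', hx', hw'⟩ := exists_add_mul_of_sq_mem (⊥ : IntermediateField K (Omega k))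
      hsq (s := {D.δ}) (by rintro z rfl; exact Or.inr rfl) hw
    obtain ⟨x, rfl⟩ := IntermediateField.mem_bot.1 hx
    obtain ⟨x', rfl⟩ := IntermediateField.mem_bot.1 hx'
    have hw'' : w = algebraMap K L x + algebraMap K L x' * δ := Subtype.ext hw'
    obtain ⟨_, ⟨x'', rfl⟩, h⟩ := exists_map_eq_of_sq_mem v (M := S0) (ρ := δ)
      (by rintro _ ⟨p, rfl⟩ _ ⟨p', rfl⟩; exact ⟨p * p', map_mul _ _ _⟩)
      (by rintro _ ⟨p, rfl⟩ _ ⟨p', rfl⟩; exact ⟨p - p', map_sub _ _ _⟩)
      (by rintro _ ⟨p, rfl⟩ _ ⟨p', rfl⟩; exact ⟨p / p', map_div₀ _ _ _⟩)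
      ⟨algebraMap k K D.d, by rw [hδ]; exact (IsScalarTower.algebraMap_apply k K L D.d).symm⟩
      (by
        have := congrArg v hδ
        rw [map_pow, hA.valuation_const D.d_ne,
          pow_eq_one_iff_of_nonneg zero_le two_ne_zero] at this
        exact this)
      h2 ⟨x, rfl⟩ ⟨x', rfl⟩
    exact ⟨x'', by rw [hw'']; exact h⟩
  -- step 2
  have hle : ∀ x : K, algebraMap K (Omega k) x ∈ M := fun x => M.algebraMap_mem x
  have hδM : D.δ ∈ M := subset_adjoin _ _ (Set.mem_singleton _)
  obtain ⟨x, hx, x', hx', hz'⟩ := exists_add_mul_of_sq_mem M (y := r)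
    (by rw [hr]; exact add_mem (hle ⟨D.a, D.a_mem⟩) (mul_mem (hle ⟨D.b, D.b_mem⟩) hδM))
    (s := {D.δ, r}) (by rintro w (rfl | rfl); exacts [Or.inl hδM, Or.inr rfl]) z.2
  have hMle : M ≤ L := adjoin.mono _ _ _ (by simp)
  let S1 : Set L := {w | (w : Omega k) ∈ M}
  obtain ⟨w, hw, hwz⟩ := exists_map_eq_of_sq_mem v (M := S1) (ρ := ρ / Q)
    (fun _ h _ h' => M.mul_mem h h') (fun _ h _ h' => M.sub_mem h h') (fun _ h _ h' => M.div_mem h h')
    (by
      show (((ρ / Q) ^ 2 : L) : Omega k) ∈ M
      rw [div_pow, hρ]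
      exact div_mem (add_mem (hle _) (mul_mem (hle _) hδM)) (pow_mem (hle _) 2))
    (by
      have := congrArg v hρ
      rw [map_pow, hq] at this
      have h' : v ρ = v Q := (pow_left_inj₀ zero_le zero_le two_ne_zero).1 this
      rw [map_div₀, h', div_self (by simpa using hQ0)])
    h2 (x := ⟨x, hMle hx⟩) (y := ⟨x', hMle hx'⟩ * Q) hx (mul_mem hx' (hle _))
  obtain ⟨x'', hx''⟩ := step1 w hw
  refine ⟨x'', hx''.trans (hwz.trans (congrArg v ?_))⟩
  rw [mul_assoc, mul_div_cancel₀ _ hQ0]
  exact Subtype.ext hz'.symm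

end Data

end Vale.Agent.P025
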